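import Mathlib

/-!
# Colourings whose red graph is a disjoint union of cliques, and the cube

Support lemmas for the hand-in `Vale.Agent.Results.P051.A_TuranColourings`.
The vertices of the cube `Q_n` are the maps `Fin n → Bool`; two of them are adjacent when they
differ in exactly one coordinate.
-/

namespace Vale.Agent.H14.CubeTuran

open Finset

/-- Parity of a `0/1` vector, as an element of `ZMod 2`. -/
def par {n : ℕ} (x : Fin n → Bool) : ZMod 2 := ∑ i, if x i then 1 else 0

/-- Flip coordinate `i`. -/
def flip {n : ℕ} (i : Fin n) (x : Fin n → Bool) : Fin n → Bool := Function.update x i (!x i)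

lemma flip_flip {n : ℕ} (i : Fin n) (x : Fin n → Bool) : flip i (flip i x) = x := by
  funext j
  unfold flip
  by_cases h : j = i
  · subst h; simp
  · simp [Function.update_of_ne h]

lemma par_flip {n : ℕ} (i : Fin n) (x : Fin n → Bool) : par (flip i x) = par x + 1 := by
  unfold par flip
  have h1 : ∀ (y : Fin n → Bool), (∑ j, if y j then (1 : ZMod 2) else 0)
      = (if y i then 1 else 0) + ∑ j ∈ univ.erase i, if y j then (1 : ZMod 2) else 0 := by
    intro y
    exact (Finset.add_sum_erase univ (fun j => if y j then (1 : ZMod 2) else 0) (mem_univ i)).symm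
  rw [h1, h1 x]
  have h2 : ∑ j ∈ univ.erase i, (if Function.update x i (!x i) j then (1 : ZMod 2) else 0)
      = ∑ j ∈ univ.erase i, if x j then (1 : ZMod 2) else 0 := by
    apply Finset.sum_congr rfl
    intro j hj
    rw [Function.update_of_ne (ne_of_mem_erase hj)]
  rw [h2, Function.update_self]
  have h3 : (1 : ZMod 2) + 1 = 0 := by decide
  cases x i
  · simp only [Bool.not_false, if_true, Bool.false_eq_true, if_false]; ring
  · simp only [Bool.not_true, if_true, Bool.false_eq_true, if_false]
    calc (0 : ZMod 2) + ∑ j ∈ univ.erase i, (if x j then (1 : ZMod 2) else 0)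
        = ∑ j ∈ univ.erase i, (if x j then (1 : ZMod 2) else 0) + ((1 : ZMod 2) + 1) := by
          rw [h3]; ring
      _ = 1 + ∑ j ∈ univ.erase i, (if x j then (1 : ZMod 2) else 0) + 1 := by ring

/-- Two vertices differing in exactly one coordinate: the second is a flip of the first. -/
lemma eq_flip_of_card {n : ℕ} {x y : Fin n → Bool}
    (h : (univ.filter (fun i => x i ≠ y i)).card = 1) : ∃ i, y = flip i x := by
  obtain ⟨i, hi⟩ := Finset.card_eq_one.mp h
  refine ⟨i, ?_⟩
  funext j
  have hj : x j ≠ y j ↔ j = i := by
    have : j ∈ univ.filter (fun i => x i ≠ y i) ↔ j ∈ ({i} : Finset (Fin n)) := by rw [hi]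
    simpa using this
  unfold flip
  by_cases hji : j = i
  · subst hji
    have hne : x j ≠ y j := hj.mpr rfl
    rw [Function.update_self]
    cases hx : x j <;> cases hy : y j <;> simp_all
  · rw [Function.update_of_ne hji]
    by_contra hne
    exact hji (hj.mp (fun h' => hne h'.symm))

lemma card_flip {n : ℕ} (i : Fin n) (x : Fin n → Bool) :
    (univ.filter (fun j => x j ≠ flip i x j)).card = 1 := by
  rw [Finset.card_eq_one]
  refine ⟨i, ?_⟩
  ext j
  simp only [mem_filter, mem_univ, true_and, mem_singleton]
  unfold flip
  by_cases hji : j = i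
  · subst hji
    rw [Function.update_self]
    cases x j <;> simp
  · rw [Function.update_of_ne hji]
    simp [hji]

lemma par_adj {n : ℕ} {x y : Fin n → Bool}
    (h : (univ.filter (fun i => x i ≠ y i)).card = 1) : par y = par x + 1 := by
  obtain ⟨i, rfl⟩ := eq_flip_of_card h
  exact par_flip i x

lemma zmod_two_cases (a : ZMod 2) : a = 0 ↔ ¬ (a + 1 = 0) := by
  revert a; decide

/-- A set of vertices of the cube that is swapped with its complement by a flip contains
exactly half of the vertices. -/
lemma card_half {n : ℕ} (i0 : Fin n) (P : (Fin n → Bool) → Prop) [DecidablePred P]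
    (h : ∀ x, P x ↔ ¬ P (flip i0 x)) :
    Fintype.card {x : Fin n → Bool // P x} = 2 ^ (n - 1) := by
  classical
  have hinv : Function.Involutive (flip i0) := flip_flip i0
  have e : {x : Fin n → Bool // P x} ≃ {x : Fin n → Bool // ¬ P x} :=
    Equiv.subtypeEquiv (Function.Involutive.toPerm (flip i0) hinv) (by
      intro x
      show P x ↔ ¬ P (flip i0 x)
      exact h x)
  have h1 := Fintype.card_congr e
  have h2 := Fintype.card_subtype_compl (fun x : Fin n → Bool => P x)
  have h3 : Fintype.card (Fin n → Bool) = 2 ^ n := by simp
  have h4 : Fintype.card {x : Fin n → Bool // P x} ≤ Fintype.card (Fin n → Bool) :=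
    Fintype.card_subtype_le _
  have hn : 1 ≤ n := by
    have := i0.isLt
    omega
  have h5 : 2 ^ n = 2 * 2 ^ (n - 1) := by
    obtain ⟨m, rfl⟩ : ∃ m, n = m + 1 := ⟨n - 1, by omega⟩
    simp [pow_succ, mul_comm]
  omega

/-- Half of the vertices of the cube have even parity. -/
lemma card_even (n : ℕ) (hn : 1 ≤ n) :
    Fintype.card {x : Fin n → Bool // par x = 0} = 2 ^ (n - 1) := by
  apply card_half (⟨0, hn⟩ : Fin n)
  intro x
  rw [par_flip]
  exact zmod_two_cases (par x)

lemma card_odd (n : ℕ) (hn : 1 ≤ n) :
    Fintype.card {x : Fin n → Bool // ¬ par x = 0} = 2 ^ (n - 1) := by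
  apply card_half (⟨0, hn⟩ : Fin n)
  intro x
  rw [par_flip]
  have := zmod_two_cases (par x)
  tauto

lemma two_pow_eq (n : ℕ) (hn : 1 ≤ n) : 2 ^ n = 2 * 2 ^ (n - 1) := by
  obtain ⟨m, rfl⟩ : ∃ m, n = m + 1 := ⟨n - 1, by omega⟩
  simp [pow_succ, mul_comm]

section greedy

variable {V κ : Type} [Fintype V] [DecidableEq κ]

lemma card_insert_labels (c : V → κ) (a : κ) (S : Finset κ) (ha : a ∉ S) :
    (univ.filter (fun v => c v ∈ insert a S)).card
      = (univ.filter (fun v => c v = a)).card + (univ.filter (fun v => c v ∈ S)).card := by
  classical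
  rw [← Finset.card_union_of_disjoint]
  · congr 1
    ext v
    simp
  · rw [Finset.disjoint_filter]
    intro v _ h1 h2
    exact ha (h1 ▸ h2)

/-- Adding the label classes one at a time, the number of covered vertices passes through the
window `[L, L - 1 + M]` when every class has at most `M` vertices. -/
lemma greedy (c : V → κ) (L M : ℕ) (hL : 1 ≤ L)
    (hfib : ∀ k, (univ.filter (fun v => c v = k)).card ≤ M) :
    ∀ S : Finset κ, L ≤ (univ.filter (fun v => c v ∈ S)).card →
      ∃ S' : Finset κ, L ≤ (univ.filter (fun v => c v ∈ S')).card ∧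
        (univ.filter (fun v => c v ∈ S')).card ≤ L - 1 + M := by
  intro S
  induction S using Finset.induction_on with
  | empty =>
    intro h
    simp at h
    omega
  | insert a S ha ih =>
    intro h
    by_cases h' : L ≤ (univ.filter (fun v => c v ∈ S)).card
    · exact ih h'
    · refine ⟨insert a S, h, ?_⟩
      rw [card_insert_labels c a S ha]
      have := hfib a
      omega

end greedy

/-- **Obstruction.** Colour the pairs of a finite set `V` red when a labelling `c` agrees on them
and blue otherwise (so the red graph is a disjoint union of cliques).  If `V` has at least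
`3 * 2 ^ (n - 1) - 1` elements then there is a red copy or a blue copy of the cube `Q_n`. -/
theorem exists_mono_cube {n : ℕ} (hn : 1 ≤ n) {V κ : Type} [Fintype V] [DecidableEq κ]
    (c : V → κ) (hV : 3 * 2 ^ (n - 1) - 1 ≤ Fintype.card V) :
    (∃ f : (Fin n → Bool) → V, Function.Injective f ∧
        ∀ x y, (univ.filter (fun i => x i ≠ y i)).card = 1 → c (f x) = c (f y)) ∨
    (∃ f : (Fin n → Bool) → V, Function.Injective f ∧
        ∀ x y, (univ.filter (fun i => x i ≠ y i)).card = 1 → c (f x) ≠ c (f y)) := by
  classical
  have h2n := two_pow_eq n hn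
  have hFpos : 1 ≤ 2 ^ (n - 1) := Nat.one_le_two_pow
  obtain ⟨F, hF⟩ : ∃ F, 2 ^ (n - 1) = F := ⟨_, rfl⟩
  rw [hF] at h2n hFpos hV
  have hcube : Fintype.card (Fin n → Bool) = 2 * F := by
    rw [← h2n]; simp
  by_cases hbig : ∃ k, 2 * F ≤ (univ.filter (fun v => c v = k)).card
  · left
    obtain ⟨k, hk⟩ := hbig
    have hcard : Fintype.card (Fin n → Bool) ≤ Fintype.card {v : V // c v = k} := by
      rw [Fintype.card_subtype, hcube]
      exact hk
    obtain ⟨e⟩ := Function.Embedding.nonempty_of_card_le hcard
    refine ⟨fun x => (e x : V), fun x y h => e.injective (Subtype.ext h), fun x y _ => ?_⟩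
    rw [(e x).2, (e y).2]
  · right
    push Not at hbig
    have hS : ∃ S : Finset κ, F ≤ (univ.filter (fun v => c v ∈ S)).card ∧
        (univ.filter (fun v => c v ∈ S)).card ≤ 2 * F - 1 := by
      by_cases hmid : ∃ k, F ≤ (univ.filter (fun v => c v = k)).card
      · obtain ⟨k, hk⟩ := hmid
        have hk' := hbig k
        have heq : (univ.filter (fun v => c v ∈ ({k} : Finset κ))) = univ.filter (fun v => c v = k) := by
          ext v
          simp
        refine ⟨{k}, ?_, ?_⟩
        · rw [heq]; exact hk
        · rw [heq]; omega
      · push Not at hmid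
        have hall : (univ.filter (fun v => c v ∈ univ.image c)) = (univ : Finset V) := by
          ext v
          simp
        obtain ⟨S, h1, h2⟩ := greedy c F (F - 1) hFpos
          (fun k => by have := hmid k; omega) (univ.image c) (by
            rw [hall, Finset.card_univ]; omega)
        exact ⟨S, h1, by omega⟩
    obtain ⟨S, hS1, hS2⟩ := hS
    have hcompl : F ≤ (univ.filter (fun v => ¬ c v ∈ S)).card := by
      have := Finset.card_filter_add_card_filter_not (s := (univ : Finset V)) (fun v => c v ∈ S)
      rw [Finset.card_univ] at this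
      omega
    have hA : Fintype.card {x : Fin n → Bool // par x = 0} ≤ Fintype.card {v : V // c v ∈ S} := by
      rw [card_even n hn, Fintype.card_subtype, hF]
      exact hS1
    have hB : Fintype.card {x : Fin n → Bool // ¬ par x = 0}
        ≤ Fintype.card {v : V // ¬ c v ∈ S} := by
      rw [card_odd n hn, Fintype.card_subtype, hF]
      exact hcompl
    obtain ⟨e0⟩ := Function.Embedding.nonempty_of_card_le hA
    obtain ⟨e1⟩ := Function.Embedding.nonempty_of_card_le hB
    let f : (Fin n → Bool) → V := fun x =>
      if h : par x = 0 then (e0 ⟨x, h⟩ : V) else (e1 ⟨x, h⟩ : V)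
    have hf0 : ∀ x (h : par x = 0), f x = (e0 ⟨x, h⟩ : V) := by
      intro x h
      simp only [f, h, dite_true]
    have hf1 : ∀ x (h : ¬ par x = 0), f x = (e1 ⟨x, h⟩ : V) := by
      intro x h
      simp only [f, h, dite_false]
    have hc0 : ∀ x, par x = 0 → c (f x) ∈ S := by
      intro x h
      rw [hf0 x h]
      exact (e0 ⟨x, h⟩).2
    have hc1 : ∀ x, ¬ par x = 0 → ¬ c (f x) ∈ S := by
      intro x h
      rw [hf1 x h]
      exact (e1 ⟨x, h⟩).2
    refine ⟨f, ?_, ?_⟩
    · intro x y hxy
      by_cases hx : par x = 0 <;> by_cases hy : par y = 0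
      · rw [hf0 x hx, hf0 y hy] at hxy
        have := e0.injective (Subtype.ext hxy)
        exact congrArg Subtype.val this
      · exfalso
        have h1 := hc0 x hx
        rw [hxy] at h1
        exact hc1 y hy h1
      · exfalso
        have h1 := hc0 y hy
        rw [← hxy] at h1
        exact hc1 x hx h1
      · rw [hf1 x hx, hf1 y hy] at hxy
        have := e1.injective (Subtype.ext hxy)
        exact congrArg Subtype.val this
    · intro x y hxy hc
      have hp := par_adj hxy
      have hz := zmod_two_cases (par x)
      by_cases hx : par x = 0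
      · have hy : ¬ par y = 0 := by
          rw [hp]
          exact hz.mp hx
        have h1 := hc0 x hx
        rw [hc] at h1
        exact hc1 y hy h1
      · have hy : par y = 0 := by
          rw [hp]
          by_contra hne
          exact hx (hz.mpr hne)
        have h1 := hc0 y hy
        rw [← hc] at h1
        exact hc1 x hx h1

/-- In a copy of the cube all of whose edges join vertices with the same label, all vertices
have the same label (the cube is connected). -/
lemma const_of_red {n : ℕ} {V κ : Type} (c : V → κ) (f : (Fin n → Bool) → V)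
    (hred : ∀ x y, (univ.filter (fun i => x i ≠ y i)).card = 1 → c (f x) = c (f y)) :
    ∀ x, c (f x) = c (f (fun _ => false)) := by
  classical
  have key : ∀ s : Finset (Fin n), ∀ x : Fin n → Bool, (∀ i, x i = true ↔ i ∈ s) →
      c (f x) = c (f (fun _ => false)) := by
    intro s
    induction s using Finset.induction_on with
    | empty =>
      intro x hx
      have : x = fun _ => false := by
        funext i
        have := hx i
        simp at this
        exact this
      rw [this]
    | insert a s ha ih =>
      intro x hx
      have hxa : x a = true := (hx a).mpr (Finset.mem_insert_self a s)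
      have h1 : c (f x) = c (f (flip a x)) := hred x (flip a x) (card_flip a x)
      rw [h1]
      apply ih
      intro i
      unfold flip
      by_cases hia : i = a
      · subst hia
        rw [Function.update_self, hxa]
        simp [ha]
      · rw [Function.update_of_ne hia, hx i]
        simp [hia]
  intro x
  exact key (univ.filter (fun i => x i = true)) x (fun i => by simp)

/-- **Sharpness.** The standard colouring of `3 * 2 ^ (n - 1) - 2` points with two label classes of
sizes `2 ^ n - 1` and `2 ^ (n - 1) - 1` has neither a red nor a blue copy of the cube `Q_n`. -/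
theorem standard_colouring {n : ℕ} (hn : 1 ≤ n) :
    ∃ c : Fin (3 * 2 ^ (n - 1) - 2) → Bool,
      (¬ ∃ f : (Fin n → Bool) → Fin (3 * 2 ^ (n - 1) - 2), Function.Injective f ∧
          ∀ x y, (univ.filter (fun i => x i ≠ y i)).card = 1 → c (f x) = c (f y)) ∧
      (¬ ∃ f : (Fin n → Bool) → Fin (3 * 2 ^ (n - 1) - 2), Function.Injective f ∧
          ∀ x y, (univ.filter (fun i => x i ≠ y i)).card = 1 → c (f x) ≠ c (f y)) := by
  classical
  have h2n := two_pow_eq n hn
  have hFpos : 1 ≤ 2 ^ (n - 1) := Nat.one_le_two_pow
  obtain ⟨F, hF⟩ : ∃ F, 2 ^ (n - 1) = F := ⟨_, rfl⟩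
  rw [hF] at h2n hFpos
  rw [hF]
  have hcube : Fintype.card (Fin n → Bool) = 2 * F := by
    rw [← h2n]; simp
  refine ⟨fun v => decide (v.val < 2 * F - 1), ?_, ?_⟩
  · rintro ⟨f, hf, hred⟩
    have hconst := const_of_red (fun v : Fin (3 * F - 2) => decide (v.val < 2 * F - 1)) f hred
    by_cases hb : (f (fun _ => false)).val < 2 * F - 1
    · have hall : ∀ x, (f x).val < 2 * F - 1 := by
        intro x
        have := hconst x
        simp only [hb, decide_true, decide_eq_true_eq] at this
        exact this
      let g : (Fin n → Bool) → Fin (2 * F - 1) := fun x => ⟨(f x).val, hall x⟩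
      have hg : Function.Injective g := by
        intro x y hxy
        apply hf
        apply Fin.ext
        have h3 : (g x).val = (g y).val := congrArg Fin.val hxy
        exact h3
      have := Fintype.card_le_of_injective g hg
      rw [hcube, Fintype.card_fin] at this
      omega
    · have hall : ∀ x, ¬ (f x).val < 2 * F - 1 := by
        intro x
        have := hconst x
        simp only [hb, decide_false, decide_eq_false_iff_not] at this
        exact this
      have hlt : ∀ x, (f x).val - (2 * F - 1) < F - 1 := by
        intro x
        have h1 := hall x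
        have h2 := (f x).isLt
        omega
      let g : (Fin n → Bool) → Fin (F - 1) := fun x => ⟨(f x).val - (2 * F - 1), hlt x⟩
      have hg : Function.Injective g := by
        intro x y hxy
        apply hf
        apply Fin.ext
        have h1 := hall x
        have h2 := hall y
        have h3 : (g x).val = (g y).val := congrArg Fin.val hxy
        have h4 : (f x).val - (2 * F - 1) = (f y).val - (2 * F - 1) := h3
        omega
      have := Fintype.card_le_of_injective g hg
      rw [hcube, Fintype.card_fin] at this
      omega
  · rintro ⟨f, hf, hblue⟩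
    let i0 : Fin n := ⟨0, hn⟩
    have hhalf : Fintype.card {x : Fin n → Bool // ¬ (f x).val < 2 * F - 1} = F := by
      have := card_half i0 (fun x : Fin n → Bool => ¬ (f x).val < 2 * F - 1) (by
        intro x
        have h := hblue x (flip i0 x) (card_flip i0 x)
        simp only [ne_eq, decide_eq_decide] at h
        tauto)
      rw [this, hF]
    have hlt : ∀ x : {x : Fin n → Bool // ¬ (f x).val < 2 * F - 1},
        (f x.1).val - (2 * F - 1) < F - 1 := by
      intro x
      have h1 := x.2
      have h2 := (f x.1).isLt
      omega
    let g : {x : Fin n → Bool // ¬ (f x).val < 2 * F - 1} → Fin (F - 1) :=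
      fun x => ⟨(f x.1).val - (2 * F - 1), hlt x⟩
    have hg : Function.Injective g := by
      intro x y hxy
      apply Subtype.ext
      apply hf
      apply Fin.ext
      have h1 := x.2
      have h2 := y.2
      have h3 : (g x).val = (g y).val := congrArg Fin.val hxy
      have h4 : (f x.1).val - (2 * F - 1) = (f y.1).val - (2 * F - 1) := h3
      omega
    have := Fintype.card_le_of_injective g hg
    rw [hhalf, Fintype.card_fin] at this
    omega

end Vale.Agent.H14.CubeTuran
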